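import Mathlib

set_option autoImplicit false

namespace Vale.Agent.P347.H710

open Real

theorem exists_pow (β : ℝ) (hβ : 0 < β) : ∃ C : ℝ, 1 ≤ C ∧ ∀ X : ℝ, 1 ≤ X →
    ∃ L : ℕ, X ≤ 2 ^ L ∧ (L : ℝ) + 1 ≤ C * X ^ β := by
  have hl2 : 0 < Real.log 2 := Real.log_pos one_lt_two
  refine ⟨1 / (β * Real.log 2) + 2, ?_, fun X hX => ?_⟩
  · have : 0 < 1 / (β * Real.log 2) := by positivity
    linarith
  have hX0 : 0 < X := by linarith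
  refine ⟨⌈Real.log X / Real.log 2⌉₊, ?_, ?_⟩
  · have h1 : Real.log X / Real.log 2 ≤ ⌈Real.log X / Real.log 2⌉₊ := Nat.le_ceil _
    rw [div_le_iff₀ hl2] at h1
    rw [← Real.log_le_log_iff hX0 (by positivity), Real.log_pow]
    exact h1
  · have h1 : (⌈Real.log X / Real.log 2⌉₊ : ℝ) < Real.log X / Real.log 2 + 1 :=
      Nat.ceil_lt_add_one (div_nonneg (Real.log_nonneg hX) hl2.le)
    have h2 : Real.log X ≤ X ^ β / β := Real.log_le_rpow_div hX0.le hβ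
    have h3 : 1 ≤ X ^ β := Real.one_le_rpow hX hβ.le
    have h4 : Real.log X / Real.log 2 ≤ X ^ β / (β * Real.log 2) := by
      rw [← div_div]
      exact div_le_div_of_nonneg_right h2 hl2.le
    have h5 : (1 / (β * Real.log 2) + 2) * X ^ β = X ^ β / (β * Real.log 2) + 2 * X ^ β := by
      ring
    rw [h5]
    linarith

theorem pow_bound (κ : ℝ) (hκ : 1 ≤ κ) (L : ℕ) :
    ((1 + 1 / κ)⁻¹) ^ (⌈κ⌉₊ * L) ≤ ((2 : ℝ) ^ L)⁻¹ := by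
  have hκ0 : 0 < κ := by linarith
  have h1 : (2 : ℝ) ≤ (1 + 1 / κ) ^ ⌈κ⌉₊ := by
    have h2 := one_add_mul_le_pow (a := 1 / κ) (by
      have : 0 < 1 / κ := by positivity
      linarith) ⌈κ⌉₊
    have h3 : (1 : ℝ) ≤ ⌈κ⌉₊ * (1 / κ) := by
      rw [mul_one_div, le_div_iff₀ hκ0, one_mul]
      exact Nat.le_ceil κ
    linarith
  rw [pow_mul, inv_pow, inv_pow]
  apply inv_anti₀ (by positivity)
  exact pow_le_pow_left₀ (by norm_num) h1 L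

theorem sqrt_half_pow (k : ℕ) : (√(1 / 2 : ℝ)) ^ (2 * k) = ((2 : ℝ) ^ k)⁻¹ := by
  rw [pow_mul, Real.sq_sqrt (by norm_num), one_div, inv_pow]

theorem err_two (κ R ε X : ℝ) (d L N : ℕ) (hκ0 : 0 < κ) (hε : 0 < ε)
    (hdR0 : 0 ≤ √(d : ℝ) + R) (hκX : κ ≤ X) (hκdR : κ * (√(d : ℝ) + R) ≤ ε * X)
    (hL1 : X ≤ 2 ^ L) (hNb : (N : ℝ) + 1 ≤ 2 * κ * (L + 1)) :
    ((N : ℝ) + 1) * (3 * (√(1 / 2)) ^ (2 * (3 * L + 5)) * κ * (√d + R)) ≤ ε / 4 := by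
  have h2L : (L : ℝ) + 1 ≤ 2 ^ L := by
    have h1 : L + 1 ≤ 2 ^ L := Nat.lt_two_pow_self
    exact_mod_cast h1
  have h2L0 : (0 : ℝ) < 2 ^ L := by positivity
  rw [sqrt_half_pow]
  have h1 : ((N : ℝ) + 1) ≤ 2 * 2 ^ L * 2 ^ L := by
    have h4 : κ ≤ 2 ^ L := hκX.trans hL1
    have h5 : 2 * κ * ((L : ℝ) + 1) ≤ 2 * κ * 2 ^ L :=
      mul_le_mul_of_nonneg_left h2L (by positivity)
    have h6 : 2 * κ * 2 ^ L ≤ 2 * 2 ^ L * 2 ^ L :=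
      mul_le_mul_of_nonneg_right (by linarith) h2L0.le
    linarith
  have h7 : (2 : ℝ) ^ (3 * L + 5) = 32 * (2 ^ L * 2 ^ L * 2 ^ L) := by
    rw [pow_add, show 3 * L = L + L + L by ring, pow_add, pow_add]
    ring
  have h8 : ((N : ℝ) + 1) * (3 * ((2 : ℝ) ^ (3 * L + 5))⁻¹ * κ * (√d + R)) =
      3 * (((N : ℝ) + 1) * (κ * (√d + R))) * ((2 : ℝ) ^ (3 * L + 5))⁻¹ := by ring
  rw [h8, ← div_eq_mul_inv, div_le_iff₀ (by positivity), h7]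
  have h9 : ((N : ℝ) + 1) * (κ * (√d + R)) ≤ (2 * 2 ^ L * 2 ^ L) * (ε * 2 ^ L) := by
    apply mul_le_mul h1 _ (by positivity) (by positivity)
    exact hκdR.trans (mul_le_mul_of_nonneg_left hL1 hε.le)
  have h10 : 0 < ε * (2 ^ L * 2 ^ L * 2 ^ L) := by positivity
  have h11 : (2 * 2 ^ L * 2 ^ L : ℝ) * (ε * 2 ^ L) = 2 * (ε * (2 ^ L * 2 ^ L * 2 ^ L)) := by ring
  have h12 : ε / 4 * (32 * (2 ^ L * 2 ^ L * 2 ^ L)) = 8 * (ε * (2 ^ L * 2 ^ L * 2 ^ L)) := by ring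
  rw [h12]
  rw [h11] at h9
  linarith

theorem err_three (κ R ε X : ℝ) (d L : ℕ) (hκ : 1 ≤ κ) (hε : 0 < ε)
    (hdR0 : 0 ≤ √(d : ℝ) + R) (hκdR : κ * (√(d : ℝ) + R) ≤ ε * X)
    (hL1 : X ≤ 2 ^ L) :
    ((1 + 1 / κ)⁻¹) ^ (⌈κ⌉₊ * L) * (√κ / 2) * (√d + R) ≤ ε / 2 := by
  have hκ0 : 0 < κ := by linarith
  have h2L0 : (0 : ℝ) < 2 ^ L := by positivity
  have h1 := pow_bound κ hκ L
  have h2 : √κ ≤ κ := by
    rw [Real.sqrt_le_left hκ0.le]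
    nlinarith
  have h3 : (√κ / 2) * (√d + R) ≤ ε * X / 2 := by
    have h4 : √κ * (√d + R) ≤ κ * (√d + R) := mul_le_mul_of_nonneg_right h2 hdR0
    linarith
  have h5 : ((2 : ℝ) ^ L)⁻¹ * (ε * X / 2) ≤ ε / 2 := by
    rw [inv_mul_le_iff₀ h2L0]
    have h6 : ε * X ≤ ε * 2 ^ L := mul_le_mul_of_nonneg_left hL1 hε.le
    linarith
  rw [mul_assoc]
  exact le_trans (mul_le_mul h1 h3 (by positivity) (by positivity)) h5

theorem cost (β δ' C₀ C1 κ R ε X : ℝ) (d L N q : ℕ) (hβ : 0 < β) (hδ'0 : 0 < δ')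
    (hδ'eq : (1 + β) * δ' = β) (hC₀ : 1 ≤ C₀) (hC1 : 1 ≤ C1) (hκ0 : 0 < κ) (hR : 0 ≤ R)
    (hε : 0 < ε) (hX0 : 0 < X) (hX : X = κ * d * (1 + R) / ε)
    (hL2 : (L : ℝ) + 1 ≤ C1 * X ^ β) (hNb : (N : ℝ) + 1 ≤ 2 * κ * (L + 1))
    (hq : (q : ℝ) ≤ C₀ * ((d : ℝ) / (ε / (4 * (N + 1)))) ^ δ') :
    (((N + 1) * (2 * (3 * L + 5) + 1 + q) : ℕ) : ℝ) ≤
      2 * C1 * (11 * C1 + C₀ * (8 * C1) ^ δ') * κ * X ^ (2 * β) := by
  have hd' : (d : ℝ) / (ε / (4 * (N + 1))) ≤ 8 * C1 * X ^ (1 + β) := by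
    have h1 : (d : ℝ) / (ε / (4 * (N + 1))) = 4 * ((N : ℝ) + 1) * (d / ε) := by
      field_simp
    have h2 : 4 * ((N : ℝ) + 1) * (d / ε) ≤ 8 * (L + 1) * (κ * d / ε) := by
      have h3 : 4 * ((N : ℝ) + 1) * (d / ε) ≤ 4 * (2 * κ * (L + 1)) * (d / ε) := by
        apply mul_le_mul_of_nonneg_right _ (by positivity)
        linarith
      refine h3.trans (le_of_eq ?_)
      ring
    have h4 : κ * d / ε ≤ X := by
      rw [hX]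
      apply div_le_div_of_nonneg_right _ hε.le
      have h6 : 0 ≤ κ * d * R := by positivity
      linarith
    have h5 : 8 * ((L : ℝ) + 1) * (κ * d / ε) ≤ 8 * (C1 * X ^ β) * X := by
      apply mul_le_mul _ h4 (by positivity) (by positivity)
      linarith
    rw [h1, Real.rpow_add hX0, Real.rpow_one]
    calc _ ≤ _ := h2
      _ ≤ _ := h5
      _ = _ := by ring
  have hq' : (q : ℝ) ≤ C₀ * (8 * C1) ^ δ' * X ^ β := by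
    refine hq.trans ?_
    rw [mul_assoc]
    apply mul_le_mul_of_nonneg_left _ (by linarith)
    refine (Real.rpow_le_rpow (by positivity) hd' hδ'0.le).trans (le_of_eq ?_)
    rw [Real.mul_rpow (by positivity) (by positivity), ← Real.rpow_mul hX0.le, hδ'eq]
  have hXβ : 0 < X ^ β := Real.rpow_pos_of_pos hX0 _
  have hn0 : ((2 * (3 * L + 5) + 1 + q : ℕ) : ℝ) ≤ (11 * C1 + C₀ * (8 * C1) ^ δ') * X ^ β := by
    push_cast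
    have h1 : 2 * (3 * (L : ℝ) + 5) + 1 ≤ 11 * (L + 1) := by
      have : (0 : ℝ) ≤ L := Nat.cast_nonneg L
      linarith
    have h2 : 11 * ((L : ℝ) + 1) ≤ 11 * (C1 * X ^ β) := by linarith
    rw [add_mul]
    linarith
  have hN' : ((N + 1 : ℕ) : ℝ) ≤ 2 * κ * (C1 * X ^ β) := by
    push_cast
    refine hNb.trans ?_
    exact mul_le_mul_of_nonneg_left hL2 (by positivity)
  rw [Nat.cast_mul]
  refine (mul_le_mul hN' hn0 (Nat.cast_nonneg _) (by positivity)).trans (le_of_eq ?_)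
  have h3 : X ^ (2 * β) = X ^ β * X ^ β := by
    rw [← Real.rpow_add hX0]
    congr 1
    ring
  rw [h3]
  ring

theorem m5_aux : ∀ δ : ℝ, 0 < δ → ∃ δ' : ℝ, 0 < δ' ∧ ∀ C₀ : ℝ, 1 ≤ C₀ → ∃ C : ℝ, 1 ≤ C ∧
  ∀ (d : ℕ) (κ R ε : ℝ), 1 ≤ d → 1 ≤ κ → 0 ≤ R → 0 < ε → ε ≤ 1 →
  ∃ (N n₀ : ℕ) (ε' : ℝ), 0 < ε' ∧ ε' ≤ 1 ∧
    (N + 1) * (ε' + 3 * (√(1 / 2)) ^ n₀ * κ * (√d + R)) +
      ((1 + 1 / κ)⁻¹) ^ N * (√κ / 2) * (√d + R) ≤ ε ∧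
    ∀ q : ℕ, (q : ℝ) ≤ C₀ * ((d : ℝ) / ε') ^ δ' →
      (((N + 1) * (n₀ + 1 + q) : ℕ) : ℝ) ≤ C * κ * (κ * d * (1 + R) / ε) ^ δ := by
  intro δ hδ
  obtain ⟨β, hβdef⟩ : ∃ β, β = δ / 2 := ⟨_, rfl⟩
  have hβ : 0 < β := by rw [hβdef]; positivity
  obtain ⟨C1, hC1, hL⟩ := exists_pow β hβ
  refine ⟨β / (1 + β), by positivity, fun C₀ hC₀ => ?_⟩
  obtain ⟨δ', hδ'⟩ : ∃ δ', δ' = β / (1 + β) := ⟨_, rfl⟩
  rw [← hδ']
  have hδ'0 : 0 < δ' := by rw [hδ']; positivity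
  have hδ'eq : (1 + β) * δ' = β := by
    rw [hδ']
    field_simp
  refine ⟨2 * C1 * (11 * C1 + C₀ * (8 * C1) ^ δ'), ?_, ?_⟩
  · have h1 : 0 ≤ C₀ * (8 * C1) ^ δ' := by positivity
    have h2 : 1 ≤ 11 * C1 + C₀ * (8 * C1) ^ δ' := by linarith
    have h3 : 1 ≤ 2 * C1 := by linarith
    exact one_le_mul_of_one_le_of_one_le h3 h2
  intro d κ R ε hd hκ hR hε hε1
  have hd1 : (1 : ℝ) ≤ d := by exact_mod_cast hd
  obtain ⟨X, hX⟩ : ∃ X, X = κ * d * (1 + R) / ε := ⟨_, rfl⟩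
  have hκ0 : 0 < κ := by linarith
  have hA : 1 ≤ κ * d * (1 + R) := by
    have h1 : 1 ≤ κ * d := one_le_mul_of_one_le_of_one_le hκ hd1
    exact one_le_mul_of_one_le_of_one_le h1 (by linarith)
  have hXA : κ * d * (1 + R) = ε * X := by
    rw [hX]
    field_simp
  have hX1 : 1 ≤ X := by
    rw [hX, le_div_iff₀ hε, one_mul]
    linarith
  have hX0 : 0 < X := by linarith
  obtain ⟨L, hL1, hL2⟩ := hL X hX1
  have hceil : (⌈κ⌉₊ : ℝ) ≤ 2 * κ := by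
    have := (Nat.ceil_lt_add_one hκ0.le).le
    linarith
  have hNb : ((⌈κ⌉₊ * L : ℕ) : ℝ) + 1 ≤ 2 * κ * (L + 1) := by
    rw [Nat.cast_mul]
    have h1 : (⌈κ⌉₊ : ℝ) * L ≤ 2 * κ * L := mul_le_mul_of_nonneg_right hceil (Nat.cast_nonneg L)
    rw [mul_add]
    linarith
  have hκX : κ ≤ X := by
    rw [hX, le_div_iff₀ hε]
    have h1 : 1 ≤ d * (1 + R) := one_le_mul_of_one_le_of_one_le hd1 (by linarith)
    have h2 : κ * ε ≤ κ * 1 := mul_le_mul_of_nonneg_left hε1 hκ0.le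
    have h3 : κ * 1 ≤ κ * (d * (1 + R)) := mul_le_mul_of_nonneg_left h1 hκ0.le
    rw [mul_assoc]
    linarith
  have hdR : √(d : ℝ) + R ≤ d * (1 + R) := by
    have h1 : √(d : ℝ) ≤ d := by
      rw [Real.sqrt_le_left (by linarith)]
      nlinarith
    have h2 : 1 * R ≤ d * R := mul_le_mul_of_nonneg_right hd1 hR
    rw [mul_add]
    linarith
  have hdR0 : 0 ≤ √(d : ℝ) + R := by positivity
  have hκdR : κ * (√(d : ℝ) + R) ≤ ε * X := by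
    rw [← hXA, mul_assoc]
    exact mul_le_mul_of_nonneg_left hdR hκ0.le
  refine ⟨⌈κ⌉₊ * L, 2 * (3 * L + 5), ε / (4 * ((⌈κ⌉₊ * L : ℕ) + 1)), by positivity, ?_, ?_, ?_⟩
  · rw [div_le_one (by positivity)]
    have : (0 : ℝ) ≤ (⌈κ⌉₊ * L : ℕ) := Nat.cast_nonneg _
    linarith
  · -- the error
    have e2 := err_two κ R ε X d L (⌈κ⌉₊ * L) hκ0 hε hdR0 hκX hκdR hL1 hNb
    have e3 := err_three κ R ε X d L hκ hε hdR0 hκdR hL1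
    have e1 : (((⌈κ⌉₊ * L : ℕ) : ℝ) + 1) * (ε / (4 * ((⌈κ⌉₊ * L : ℕ) + 1))) = ε / 4 := by
      have : (((⌈κ⌉₊ * L : ℕ) : ℝ) + 1) ≠ 0 := by positivity
      field_simp
    rw [mul_add, e1]
    linarith
  · intro q hq
    have h1 := cost β δ' C₀ C1 κ R ε X d L (⌈κ⌉₊ * L) q hβ hδ'0 hδ'eq hC₀ hC1 hκ0 hR hε hX0 hX
      hL2 hNb hq
    rw [show 2 * β = δ by rw [hβdef]; ring] at h1
    rw [← hX]
    exact h1

end Vale.Agent.P347.H710
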