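import Vale.Agent.P347.H941.KDefs
import Vale.Agent.P347.H710.Arith

namespace Vale.Agent.P347.K

/-- **M5** (helper710): arithmetic of the numbers of steps. -/
theorem m5 : M5 := H710.m5_aux

end Vale.Agent.P347.K
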